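import Mathlib
import Vale.Agent.P052.Join

namespace Vale.Agent.Results.P052.BorsukFailsFrom63

open Vale.Agent.P052

theorem result (d : ℕ) (hd : 63 ≤ d) :
    ∃ Y : Set (EuclideanSpace ℝ (Fin d)), Bornology.IsBounded Y ∧ 0 < Metric.diam Y ∧
      ∀ A : Fin (d + 1) → Set (EuclideanSpace ℝ (Fin d)), (⋃ i, A i) = Y →
        ∃ i, Metric.diam Y ≤ Metric.diam (A i) := by
  rcases Nat.eq_or_lt_of_le hd with rfl | hd
  · obtain ⟨p, D, hD, hle, hcl, hatt⟩ := exists_points
    refine cover_criterion finrank_euclideanSpace_fin p D hD hle hatt (fun _ => 1) 5 ?_ ?_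
    · intro s hs
      simpa using hcl s hs
    · simp
  · obtain ⟨k, rfl⟩ := Nat.exists_eq_add_of_le hd
    exact join_counterexample k

end Vale.Agent.Results.P052.BorsukFailsFrom63
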